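import Vale.Agent.P014T.Nv.Nv
import Vale.Agent.P004T.All
import Vale.Agent.P004F.All
import Vale.Agent.P004R.All
import Vale.Agent.P004C.All

/-! # P014T: non vanishing twists, closed form -/

namespace Vale.Agent.P014T.Nv

theorem hnz : P004F.En.HNZ3 fun _ => True := fun N G a L h l _ =>
  P004F.En.hnz3 P004S.smith P004T.iso P004T.loc2 (P004T.Gw.gwk2_of P004T.Gw.cntk P004T.Gw.lim)
    (P004F.conv3 (P004R.anchor_red.or P004C.anchor_irr)) N G a L h l (Classical.em _).symm

theorem nv_all : NV := nv hnz P004Z.gz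

theorem nvd_all : NVD := nvd nv_all

end Vale.Agent.P014T.Nv
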