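import Vale.Agent.P014T.St
import Vale.Agent.P014T.Lk.Mod
import Vale.Agent.P014T.Pr.Pair
import Vale.Agent.P014T.Z.Defs
import Vale.Agent.P004F.En.Cv

/-! # P014T: analytic ranks of twists, non vanishing twists -/

set_option autoImplicit false
set_option linter.all false

open UpperHalfPlane
open scoped NumberTheorySymbols Real

noncomputable section

namespace Vale.Agent.P014T.Nv

open P004N (RN ALw NF IsEll)
open P004Z (Ok eps Van1 Van2 tw GZ)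
open P004T (ds ds_spec)
open P004F.En (HNZ3)
open P004M.TE (al)
open An (M0 M1)
open Z (Hg L0 L1)
open Top (sI El Ae Nf Ar)
open Lc (Wq)
open Sm (Md)

variable {N δ : ℕ} {G : ℍ → ℂ} {a : ℕ → ℤ} {ε : ℝ} {A B A' B' : ℤ}

/-- `L'(1) / (2 π)` of the twist (the text of `Zd.L1d`) -/
abbrev Ld (a : ℕ → ℤ) (δ : ℕ) : ℂ :=
  ∫ y in Set.Ioi (0 : ℝ), tw a δ (Complex.I * y) * (Real.log y : ℝ)

theorem p2 : (2 * π : ℂ) ≠ 0 := by exact_mod_cast Real.two_pi_pos.ne'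

theorem M0_tw (a : ℕ → ℤ) (δ : ℕ) :
    M0 (fun n => ((a n * J(n | δ) : ℤ) : ℂ)) = 2 * π * L0 a δ := rfl

theorem M1_tw (a : ℕ → ℤ) (δ : ℕ) :
    M1 (fun n => ((a n * J(n | δ) : ℤ) : ℂ)) = 2 * π * Ld a δ := rfl

theorem nf_of (h : RN N G a) (w : ALw N N G ε) (e : ε = 1 ∨ ε = -1) :
    NF N G (fun n => (a n : ℝ)) ε :=
  let ⟨_, k⟩ := P004Z.Ar.nf_of_rn h
  { k with sgn := e, al := w }

theorem ex_al (h : RN N G a) : ∃ ε : ℝ, (ε = 1 ∨ ε = -1) ∧ ALw N N G ε :=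
  let ⟨ε, k⟩ := P004Z.Ar.nf_of_rn h
  ⟨ε, k.sgn, k.al⟩

/-- **the sign of a twist** -/
theorem sgn (h : RN N G a) (w : ALw N N G ε) (e : ε = 1 ∨ ε = -1) (ho : Odd δ)
    (hs : Squarefree δ) (hc : N.Coprime δ) :
    (L0 a δ ≠ 0 → ε * (eps δ * J(N | δ) : ℤ) = -1) ∧
      (Van1 a δ → Ld a δ ≠ 0 → ε * (eps δ * J(N | δ) : ℤ) = 1) := by
  obtain ⟨G', k⟩ := Lk.nf_tw (nf_of h w e) ho hs hc
  have r := P004T.rn_of_nf k
  obtain ⟨s0, s1⟩ := An.sign r.pos (Lk.rn_gd r) r.qe k.al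
  rw [M0_tw, ← neg_one_mul, jacobiSym.mul_left] at s0 s1
  rw [M1_tw] at s1
  exact ⟨fun z => s0 (mul_ne_zero p2 z), fun z z' => s1 (by rw [show L0 a δ = 0 from z, mul_zero])
    (mul_ne_zero p2 z')⟩

theorem md (A B : ℤ) : Md (Wq (sI A B)) A B 1 0 0 0 := by
  refine ⟨one_ne_zero, ?_, ?_, ?_, ?_, ?_⟩ <;> simp [sI]

theorem dl (h : El A B) : (sI A B).Δ ≠ 0 := by
  have : (sI A B).Δ = -16 * (4 * A ^ 3 + 27 * B ^ 2) := by
    simp only [sI, WeierstrassCurve.Δ, WeierstrassCurve.b₂, WeierstrassCurve.b₄,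
      WeierstrassCurve.b₆, WeierstrassCurve.b₈]
    ring
  rw [this]
  exact mul_ne_zero (by norm_num) h

theorem ell (h : El A B) : (Wq (sI A B)).IsElliptic := Lc.ell (dl h)

/-- **the analytic rank through the form** -/
theorem rk0 (h : El A B) (k : Nf A B N G a) :
    (Ar A B 0 ↔ M0 (fun n => (a n : ℂ)) ≠ 0) ∧
      (Ar A B 1 ↔ M0 (fun n => (a n : ℂ)) = 0 ∧ M1 (fun n => (a n : ℂ)) ≠ 0) := by
  have := ell h
  obtain ⟨S, -, -, t⟩ := Lk.at_fin (md A B) k.rn k.fin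
  obtain ⟨M, m, -⟩ := Lk.rn_lh k.rn
  obtain ⟨L, l⟩ := Lk.ex_ell k.rn t m
  exact ⟨⟨fun ⟨L', l', o⟩ => (Lk.val k.rn t l').1.1 o, fun z => ⟨L, l, (Lk.val k.rn t l).1.2 z⟩⟩,
    fun ⟨L', l', o⟩ => (Lk.val k.rn t l').2.1.1 o, fun z => ⟨L, l, (Lk.val k.rn t l).2.1.2 z⟩⟩

/-- the newform of a twist -/
theorem nf_tw (h : El A B) (k : Nf A B N G a) (ho : Odd δ) (hs : Squarefree δ) (hc : N.Coprime δ)
    (e : Ae (A * ds δ ^ 2) (B * ds δ ^ 3) A' B') :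
    ∃ G', Nf A' B' (N * δ ^ 2) G' fun n => a n * J(n | δ) := by
  obtain ⟨G', r⟩ := Lk.rn_tw k.rn ho hs hc
  obtain ⟨e1, e2⟩ := ds_spec ho
  refine ⟨G', r, ((k.fin.union e).union (Lk.bd A B * δ).primeFactors.finite_toSet).subset ?_⟩
  rintro p ⟨hp, n⟩
  by_contra c
  simp only [Set.mem_union, not_or, Set.mem_setOf_eq, hp, true_and, not_not, Finset.mem_coe,
    Nat.mem_primeFactors, ne_eq, mul_eq_zero, Lk.bd_ne h, ho.pos.ne', or_self, not_false_eq_true,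
    and_true] at c
  obtain ⟨⟨c1, c2⟩, c3⟩ := c
  have g : ¬ p ∣ Lk.bd A B := fun z => c3 (z.mul_right _)
  refine n ?_
  rw [← c2, Lk.al_prime hp g (e2.symm ▸ fun z => c3 (z.mul_left _)), c1, Lk.jac e1 (hp.odd_of_ne_two ?_), e2]
  rintro rfl
  exact g (Int.natAbs_dvd_natAbs.2 (dvd_mul_right (2 : ℤ) _))

/-- **the analytic rank of a twist** -/
theorem rkd (h : El A B) (h' : El A' B') (k : Nf A B N G a) (ho : Odd δ) (hs : Squarefree δ)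
    (hc : N.Coprime δ) (e : Ae (A * ds δ ^ 2) (B * ds δ ^ 3) A' B') :
    (Ar A' B' 0 ↔ L0 a δ ≠ 0) ∧ (Ar A' B' 1 ↔ Van1 a δ ∧ Ld a δ ≠ 0) := by
  obtain ⟨G', k'⟩ := nf_tw h k ho hs hc e
  have := rk0 h' k'
  rw [M0_tw, M1_tw, mul_ne_zero_iff_left p2, mul_ne_zero_iff_left p2, mul_eq_zero_iff_left p2] at this
  exact this

theorem ds_one : ds 1 = 1 := by simp [ds, eps]

/-- **the analytic rank** -/
theorem rk (h : El A B) (k : Nf A B N G a) :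
    (Ar A B 0 ↔ L0 a 1 ≠ 0) ∧ (Ar A B 1 ↔ Van1 a 1 ∧ L1 a ≠ 0) :=
  rkd h h k odd_one squarefree_one (Nat.coprime_one_right N) (by simp [ds_one, Ae])

/-- the sign in rank one -/
theorem alw (h : El A B) (k : Nf A B N G a) (r : Ar A B 1) : ALw N N G 1 := by
  obtain ⟨ε, e, w⟩ := ex_al k.rn
  obtain ⟨v, d⟩ := (rk h k).2.1 r
  have := (sgn k.rn w e odd_one squarefree_one (Nat.coprime_one_right N)).2 v d
  simp only [eps, jacobiSym.one_right, mul_one, Int.cast_one] at this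
  exact this ▸ w

/-- the row `Pl.SGN` -/
theorem sgr (A B : ℤ) (N : ℕ) (G : ℍ → ℂ) (a : ℕ → ℤ) (h : El A B) (k : Nf A B N G a)
    (r : Ar A B 1) : ALw N N G 1 ∧ Van1 a 1 ∧ L1 a ≠ 0 := ⟨alw h k r, (rk h k).2.1 r⟩

/-- twists of order at most one -/
def NV : Prop := ∀ N G a, RN N G a → ∀ (s : ℤ) (M T : ℕ), s = 1 ∨ s = -1 → M ≠ 0 →
  ∃ δ : ℕ, Ok N δ ∧ M.Coprime δ ∧ (M : ℤ) ∣ ds δ - 1 ∧ eps δ = s ∧ J(N | δ) = 1 ∧ T ≤ δ ∧
    ¬ Van2 a δ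

/-- **Heegner fields with a non vanishing twist** -/
def NVD : Prop := ∀ N G a, RN N G a → ALw N N G 1 → ∀ M T : ℕ, M ≠ 0 →
  ∃ d : ℕ, Hg N d 1 ∧ T ≤ d ∧ M ∣ d + 1 ∧ L0 a d ≠ 0

theorem nv (hH : HNZ3 fun _ => True) (hG : GZ) : NV := by
  intro N G a h s M T hs M0
  obtain ⟨L, l⟩ := Lk.ex_lat h
  obtain ⟨m, m0, hU⟩ := P004F.En.ex_mod a
  obtain ⟨δ, k, c1, c2, c3, c4, c5, c6⟩ := ex_delta (hH N G a L h l trivial) h.pos.ne'
    (mul_ne_zero M0 m0) hs T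
  refine ⟨δ, k, c1.coprime_dvd_left (dvd_mul_right _ _),
    Dvd.dvd.trans ⟨m, by push_cast; rfl⟩ c2, c3, c4, c5, fun v => c6 ⟨δ, k, ?_, rfl, ?_⟩⟩
  · exact hU a 1 1 δ one_ne_zero one_ne_zero (fun p _ _ => by simp)
      (c1.coprime_dvd_left (dvd_mul_left _ _)) (by simp)
  · rintro δ' ⟨β, d, t⟩
    exact t (hG N G a L δ δ' β h l d v)

theorem nvd (hV : NV) : NVD := by
  intro N G a h w M T M0
  have N0 := h.pos
  obtain ⟨d, k, -, c2, c3, c4, c5, c6⟩ := hV N G a h (-1) (16 * N * M) (T + 64 * N ^ 4 + 1)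
    (.inr rfl) (by positivity)
  have e : ((16 * N * M : ℕ) : ℤ) ∣ d + 1 := by
    rw [ds, c3, show -1 * (d : ℤ) - 1 = -(d + 1) by ring, dvd_neg] at c2
    exact c2
  have e8 : (8 : ℤ) ∣ d + 1 := Dvd.dvd.trans ⟨2 * N * M, by push_cast; ring⟩ e
  refine ⟨d, ⟨k.sq, by omega, fun q hq _ n => ?_, by omega, ?_⟩, by omega, ?_, fun z => c6 ⟨z, ?_⟩⟩
  · rw [← jacobiSym.one_left q]
    refine jacobiSym.mod_left' (Int.modEq_iff_dvd.2 ?_)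
    rw [show 1 - -(d : ℤ) = d + 1 by ring]
    exact (Int.natCast_dvd_natCast.2 ((n.mul_left 16).mul_right M)).trans e
  · rw [one_pow, add_comm]
    exact Dvd.dvd.trans ⟨M, by push_cast; ring⟩ e
  · exact Int.natCast_dvd_natCast.1 (Dvd.dvd.trans ⟨16 * N, by push_cast; ring⟩ e)
  · by_contra n
    have := (sgn h w (.inl rfl) k.odd k.sq k.cop).2 z n
    rw [c3, c4] at this
    norm_num at this

end Vale.Agent.P014T.Nv
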